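import Crest.Agent.X262.Geo.Val
import Crest.Agent.X262.Mod79.Bp
import Crest.Agent.X277.Res.LogD
import Crest.Agent.X277.Cnm.Loc

/-!
# Row 262, SARK (helper27): smooth models are terminal

* `car_iff_on`, `isMod_oP` : a smooth model as a model in the sense of `Mod`;
* `jac_le_kP` : along a prime of `W` the canonical divisor of `W` is extremal;
* `kP_le_val`, `kP_eq_val`, `kP_lt_val` : comparison of the canonical divisors of two models.
-/

set_option autoImplicit false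

open WithZero
open scoped KaehlerDifferential

noncomputable section

namespace Crest.Agent.X262.Sark27

open Crest.Agent.X277 Crest.Agent.X277.Lef Crest.Agent.X277.AN.G1 Crest.Agent.X277.BD
open Crest.Agent.X277.Pst
open Crest.Agent.X277.BD.Br (At On oP kP)
open Crest.Agent.X277.Cns (Ov)
open Crest.Agent.X277.Neg (nv nv_triv IsNv isNv_nv le_loc)
open Crest.Agent.X262.Mod
open Crest.Agent.R276.DivVal_858 (ResInd)

variable {F : Type} [Field F] [Algebra ℂ F] {n : ℕ} {P W : PModel ℂ F} {V : RZ ℂ F} {a : BD ℂ F}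

theorem car_of_on (ha : a ∈ On P) : Car (oP P) a := by
  obtain ⟨N, h1⟩ := Br.serre ha
  obtain ⟨M, h2⟩ := Br.serre (neg_mem ha)
  exact car_of Br.free_oP (m := N) (n := M) (add_comm a _ ▸ h1 N le_rfl)
    (by rw [sub_eq_neg_add]; exact h2 M le_rfl)

/-- the local ring at a point of the centre lies in the local ring at the centre -/
theorem lp_le_loc {x : Pts P} (hx : Ov x V.1) {f : F} (hf : f ∈ (lp x).O) : f ∈ loc (oP P) V := by
  obtain ⟨i, hi⟩ := exists_pat x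
  obtain ⟨p, hp, c, hc, h0, h1⟩ := (mem_lp_iff hi).1 hf
  have key : ∀ g ∈ P.A i, g ∈ loc (oP P) V := fun g hg => by
    obtain ⟨N, hN⟩ := Br.exists_tw_mem (a := 0) (f := g) (i := i) fun U hU =>
      RZ.le_one_iff.2 (hU g hg)
    refine ⟨N, P.y i ^ N, pow_mem_Sec (Br.y_mem_Sec i) N, (Br.at_y hi).nsmul N V hx, ?_⟩
    simpa using hN N le_rfl
  have h2 : V.v c = 1 := Br.ev_ne_iff'.1 h0 V hx
  have h3 : f = p * c⁻¹ := by
    rw [← h1, mul_inv_cancel_right₀ (RZ.ne_zero_iff.1 (h2 ▸ one_ne_zero))]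
  rw [h3]
  exact mul_mem (key p hp) (Neg.inv_mem_loc (key c hc) h2)

theorem exists_den {x : Pts P} (hx : Ov x V.1) {f : F} (hf : f ∈ loc (oP P) V) :
    ∃ c ∈ (lp x).O, V.v c = 1 ∧ c * f ∈ (lp x).O := by
  obtain ⟨m, g, h1, h2, h3⟩ := hf
  obtain ⟨i, hi⟩ := exists_pat x
  have h4 := (Br.at_y hi).nsmul m
  refine ⟨g / P.y i ^ m, h4.div_mem h1, ?_, ?_⟩
  · rw [map_div₀, h2, h4 V hx, div_self (val_ne _ _)]
  · rw [div_mul_eq_mul_div, mul_comm]
    exact h4.div_mem h3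

theorem on_of_car (ha : Car (oP P) a) : a ∈ On P := fun x => by
  obtain ⟨V, h1, h2⟩ := Br.exists_dom x
  obtain ⟨g, -, hg⟩ := ha.exists_gen Br.free_oP V
  refine ⟨g, fun U hU => hg U (gz_of_loc Br.free_oP fun f hf => ?_)⟩
  obtain ⟨c, h3, h4, h5⟩ := exists_den h1 hf
  have h6 := (h2 c h3).1 h4
  have h7 : f = c⁻¹ * (c * f) := (inv_mul_cancel_left₀ (LP.ne_zero_of_ne h6) f).symm
  rw [h7]
  exact hU _ (mul_mem ((lp x).inv_mem h6) h5)

theorem car_iff_on : Car (oP P) a ↔ a ∈ On P := ⟨on_of_car, car_of_on⟩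

theorem bir_oP (P : PModel ℂ F) : Bir (oP P) := fun f => by
  classical
  obtain ⟨c, M, hc, h⟩ := Res.Out.exists_den P.y_ne (P.frac' 0) {1, f}
  have key : ∀ g ∈ ({1, f} : Finset F), c * g ∈ (M • oP P).Sec := fun g hg =>
    Br.mem_Sec_of fun x => by
      obtain ⟨i, hi⟩ := exists_pat x
      exact ⟨_, (Br.at_y hi).nsmul M, A_le hi (h g hg i)⟩
  exact ⟨M, c, by simpa using key 1 (by simp), hc, mul_comm c f ▸ key f (by simp)⟩

theorem isMod_oP (P : PModel ℂ F) : IsMod (oP P) := ⟨Br.free_oP, bir_oP P⟩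

variable [Algebra.EssFiniteType ℂ F] (b : Module.Basis (Fin n) F Ω[F⁄ℂ])

theorem loc_lp (hV : Prm (oP W) V) {x : Pts W} (hx : Ov x V.1) : Link.Loc (lp x).O (nv V) :=
  ⟨fun f hf => (Geo.nv_le_one hV.dvs).2 (hx f hf), fun f hf => by
    obtain ⟨c, h1, h2, h3⟩ := exists_den hx
      (le_loc Br.free_oP (bir_oP W) hV ((Geo.nv_le_one hV.dvs).1 hf))
    exact ⟨c, h1, (Geo.nv_eq_one hV.dvs).2 h2, h3⟩⟩

/-- along a prime of `W` the canonical divisor of `W` is extremal -/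
theorem jac_le_kP (hV : Prm (oP W) V) {c : Fin n → F} (hc : ∀ l, c l ∈ V.1) :
    V.v (jac b c) ≤ (kP W b).val V := by
  obtain ⟨x, hx⟩ := Br.exists_ov' W V
  obtain ⟨z, hz⟩ := exists_crd b x
  rw [← Br.at_kP b hz V hx, ← Geo.nv_le_iff hV.dvs]
  exact Res.Log.v_jac_le_of_loc b (loc_lp hV hx) hz fun l => (Geo.nv_le_one hV.dvs).2 (hc l)

omit [Algebra.EssFiniteType ℂ F] in
variable (P V) in
theorem exists_jac : ∃ z : Fin n → F, (∀ l, z l ∈ loc (oP P) V) ∧ V.v (jac b z) = (kP P b).val V := by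
  obtain ⟨x, hx⟩ := Br.exists_ov' P V
  obtain ⟨z, hz⟩ := exists_crd b x
  exact ⟨z, fun l => lp_le_loc hx (hz.mem l), Br.at_kP b hz V hx⟩

variable (P) in
theorem kP_le_val (hV : Prm (oP W) V) : (kP P b).val V ≤ (kP W b).val V := by
  obtain ⟨z, h1, h2⟩ := exists_jac P V b
  exact h2 ▸ jac_le_kP b hV fun l => mem_of_loc (h1 l)

theorem kP_eq_val (hP : Prm (oP P) V) (hV : Prm (oP W) V) : (kP P b).val V = (kP W b).val V :=
  (kP_le_val P b hV).antisymm (kP_le_val W b hP)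

/-- functions with an extremal Jacobian have `n - 1` independent residues -/
theorem exists_resInd (hV : Dvs V) {z : Fin n → F} (hz : ∀ l, z l ∈ V.1) (h0 : jac b z ≠ 0)
    (h : ∀ c : Fin n → F, (∀ l, c l ∈ V.1) → V.v (jac b c) ≤ V.v (jac b z)) :
    ∃ j : Fin (Gj.dm ℂ F - 1) → Fin n, ResInd ℂ V.1 fun i => z (j i) := by
  classical
  have hn : Gj.dm ℂ F = n := by rw [Gj.dm, Module.finrank_eq_card_basis b, Fintype.card_fin]
  obtain ⟨π, hπ⟩ := Geo.nv_unif hV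
  have hπ0 : π ≠ 0 := Link.ne_zero_of_v hπ
  have hD : ∀ l f, f ∈ V.1 → pdD h0 l f ∈ V.1 := fun l f hf => by
    rw [pdD_apply, pd, ← RZ.le_iff h0]
    refine h _ fun m => ?_
    by_cases hm : m = l
    · subst hm
      simpa using hf
    · simpa [Function.update_of_ne hm] using hz m
  have hπ1 : V.v π < 1 := (Geo.nv_lt_one hV).1 (hπ ▸ Link.exp_neg_one_lt)
  have key : ∀ η : Derivation ℂ F F, (∀ f ∈ V.1, η f ∈ V.1) → V.v (η π) < 1 →
      ∀ f, V.v f < 1 → V.v (η f) < 1 := fun η h1 h2 f hf => by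
    have h3 : f / π ∈ V.1 := (RZ.le_iff hπ0).1 ((Geo.nv_le_iff hV).1
      (hπ ▸ Link.lt_one_iff_le.1 ((Geo.nv_lt_one hV).2 hf)))
    rw [← div_mul_cancel₀ f hπ0, Derivation.leibniz, smul_eq_mul, smul_eq_mul]
    refine V.v.map_add_lt ?_ ?_
    · rw [map_mul]
      exact (mul_le_of_le_one_left' (RZ.le_one_iff.2 h3)).trans_lt h2
    · rw [map_mul]
      exact (mul_le_of_le_one_right' (RZ.le_one_iff.2 (h1 _ h3))).trans_lt hπ1
  obtain ⟨d, hd⟩ : ∃ d, n = d + 1 := Nat.exists_eq_succ_of_ne_zero (hn ▸ dm_ne (dvs_iff.1 hV).1)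
  subst hd
  rw [hn, Nat.add_sub_cancel]
  obtain ⟨i, hi⟩ : ∃ i, ∀ l, V.v (pdD h0 l π) ≤ V.v (pdD h0 i π) := by
    obtain ⟨i, -, hi⟩ := Finset.exists_max_image Finset.univ (fun l => V.v (pdD h0 l π))
      Finset.univ_nonempty
    exact ⟨i, fun l => hi l (Finset.mem_univ l)⟩
  have h1 : ∀ l, pdD h0 l π / pdD h0 i π ∈ V.1 := fun l => by
    by_cases h2 : pdD h0 i π = 0
    · rw [h2, div_zero]
      exact zero_mem _
    · exact (RZ.le_iff h2).1 (hi l)
  refine ⟨i.succAbove, fun l => hz _, Cnm.val_aeval_eq_one V.2 (fun l => hz _)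
    (fun l => pdD h0 (i.succAbove l) - (pdD h0 (i.succAbove l) π / pdD h0 i π) • pdD h0 i)
    (fun l m => ?_) fun l => key _ (fun f hf => ?_) ?_⟩
  · simp [pdD_apply, pd_self h0, (Fin.succAbove_ne i m).symm]
  · exact sub_mem (hD _ f hf) (mul_mem (h1 _) (hD _ f hf))
  · by_cases h2 : pdD h0 i π = 0
    · have h3 := hi (i.succAbove l)
      rw [h2, map_zero, le_zero_iff, Valuation.zero_iff] at h3
      simp [h2, h3]
    · simp [div_mul_cancel₀ _ h2]

/-- **smooth models are terminal** -/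
theorem kP_lt_val (hV : Prm (oP W) V) (hP : ¬ Prm (oP P) V) : (kP P b).val V < (kP W b).val V := by
  refine lt_of_le_of_ne (kP_le_val P b hV) fun h => hP ?_
  obtain ⟨z, h1, h2⟩ := exists_jac P V b
  obtain ⟨j, hj⟩ := exists_resInd b hV.dvs (fun l => mem_of_loc (h1 l)) (ne_of_val h2)
    fun c hc => (jac_le_kP b hV hc).trans (h ▸ h2.ge)
  exact ⟨hV.1, _, fun i => h1 _, hj⟩

end Crest.Agent.X262.Sark27
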