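import Crest.Agent.X262.Sark27.Term
import Crest.Agent.X262.Sark.Game
import Crest.Agent.X277.AN.G1Conn

/-!
# Row 262, SARK (helper27): `CanStmt`
-/

set_option autoImplicit false

namespace Crest.Agent.X262.Sark27

open Crest.Agent.X277

theorem canStmt : Sark.CanStmt := fun K _ _ _ b W _ _ hV =>
  haveI : Algebra.EssFiniteType ℂ K := AN.G1.essFiniteType W
  ⟨fun h => kP_eq_val b h hV, fun h => kP_lt_val b hV h⟩

end Crest.Agent.X262.Sark27
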