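import Crest.Agent.X262.Sark27.Can
import Crest.Agent.X262.Geo.Dv
import Crest.Agent.X262.FG.ArrOut76
import Crest.Agent.X262.FG.Up0
import Crest.Agent.X277.Unf.Main
import Crest.Agent.X277.BD.Num2

/-!
# Row 262, SARK (helper27): the geography of two Fano models

* `Ex W Y`    : classes which exceed their trace on `Y` along every `Y`-exceptional prime of `W`;
* `dY n Y`    : the degree with respect to the polarisation of `Y`;
* `sameP_of_ex` : the ample model of a big class in `Ex W Y` is `Y`;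
* `setup_of`  : `SetupStmt`.
-/

set_option autoImplicit false
set_option linter.unusedSectionVars false

open Filter
open scoped KaehlerDifferential

noncomputable section

namespace Crest.Agent.X262.Sark27

open Crest.Agent.X277 Crest.Agent.X277.Lef Crest.Agent.X277.BD Crest.Agent.X277.Pst
open Crest.Agent.X277.BD.Br (On oP kP)
open Crest.Agent.X262.Mod Crest.Agent.X262.Sark
open Crest.Agent.X262.Geo (od tr dv)
open Crest.Agent.X262.FG (Amp)

variable {K : Type} [Field K] [Algebra ℂ K] [Algebra.EssFiniteType ℂ K] {n : ℕ}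
  {W Y : PModel ℂ K} {a z p : BD ℂ K}

variable (W Y) in
/-- `a` exceeds its trace on `Y` along the exceptional primes -/
def Ex (a : BD ℂ K) : Prop := ∀ V, Prm (oP W) V → ¬ Prm (oP Y) V → 0 < od V (a - tr Y a)

theorem Ex.add (ha : Ex W Y a) (hz : Ex W Y z) : Ex W Y (a + z) := fun V h1 h2 => by
  rw [map_add, add_sub_add_comm, map_add]
  exact add_pos (ha V h1 h2) (hz V h1 h2)

theorem Ex.add_on (ha : Ex W Y a) (hz : z ∈ On Y) : Ex W Y (a + z) := fun V h1 h2 => by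
  rw [map_add, Geo.tr_eq hz, add_sub_add_right_eq_sub]
  exact ha V h1 h2

theorem Ex.ev (ha : Ex W Y a) (z : BD ℂ K) : ∀ᶠ m : ℕ in atTop, Ex W Y (m • a + z) := by
  filter_upwards [(((isMod_oP Y).fin_exc (isMod_oP W)).eventually_all
    (p := fun V (m : ℕ) => 0 < m * od V (a - tr Y a) + od V (z - tr Y z))).2
      fun V hV => ev_pos (ha V hV.1 hV.2) _] with m hm V h1 h2
  rw [map_add, map_nsmul, add_sub_add_comm, ← smul_sub, map_add, map_nsmul, nsmul_eq_mul]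
  exact hm V ⟨h1, h2⟩

theorem opn_ex {κ : Type} (D : (κ → ℤ) →+ BD ℂ K) : Opn {x | Ex W Y (D x)} :=
  ⟨fun x hx y hy => by simpa only [Set.mem_ofPred_eq, map_add] using Ex.add hx hy,
    fun x hx y => by simpa only [Set.mem_ofPred_eq, map_add, map_nsmul] using Ex.ev hx (D y)⟩

theorem Ex.tr_le (ha : Ex W Y a) (hY : oP Y ∈ On W) (h : a ∈ On W) : tr Y a ≤ a :=
  Geo.le_On (Br.On_le_iff.2 hY (Geo.tr_mem a)) h fun V hV => by
    by_cases h1 : Prm (oP Y) V
    · exact (Geo.od_tr h1 a).le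
    · exact (sub_pos.1 (map_sub (od V) _ _ ▸ ha V hV h1)).le

theorem tr_kP (b : Module.Basis (Fin n) K Ω[K⁄ℂ]) (hY : oP Y ∈ On W) : tr Y (kP W b) = kP Y b :=
  (Geo.eq_tr (Br.kP_mem b) fun _ hV =>
    (Geo.od_eq_iff hV.dvs).2 (kP_eq_val b hV (Geo.prm_up hY hV))).symm

theorem ex_kP (b : Module.Basis (Fin n) K Ω[K⁄ℂ]) (hY : oP Y ∈ On W) : Ex W Y (kP W b) :=
  fun V h1 h2 => by
    rw [tr_kP b hY, map_sub, sub_pos]
    exact (Geo.od_lt_iff h1.dvs).2 (kP_lt_val b h1 h2)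

variable (n Y) in
/-- the degree -/
def dY : BD ℂ K →+ ℤ := bnumL (List.replicate n (oP Y))

theorem nef_rep : ∀ x ∈ List.replicate n (oP Y), Nef x := fun _ hx =>
  List.eq_of_mem_replicate hx ▸ Br.free_oP.nef

theorem dY_eff (h : Eff a) : 0 ≤ dY n Y a := h.bnum_nonneg nef_rep

theorem dY_lin (h : Lin a z) : dY n Y a = dY n Y z := h.bnum_eq _

variable (b : Module.Basis (Fin (n + 1)) K Ω[K⁄ℂ])
include b

theorem dim_eq : dim ℂ K = n + 1 := by
  rw [← Geo.dm_eq, Gj.dm, Module.finrank_eq_card_basis b, Fintype.card_fin]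

theorem dY_oP : 0 < dY n Y (oP Y) :=
  bnum_pos (l := List.replicate (n + 1) (oP Y)) (by rw [List.length_replicate, dim_eq b])
    fun _ hx => List.eq_of_mem_replicate hx ▸ ⟨Br.free_oP.nef, (isMod_oP Y).big⟩

theorem dY_big (h : Big a) : 0 < dY n Y a := h.bnum_pos nef_rep (dY_oP b)

theorem dY_tr (a : BD ℂ K) : dY n Y (tr Y a) = dY n Y a :=
  Geo.bnum_tr (fun _ h1 h2 => Geo.dg_eq_zero Br.free_oP h1 h2 (dim_eq b)) a

theorem dY_kP (hF : F1 Y b) (hY : oP Y ∈ On W) : dY n Y (kP W b) < 0 := by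
  obtain ⟨r, hr, h⟩ := hF.1
  have h1 := dY_lin (Y := Y) (n := n) h
  rw [map_add, map_nsmul, map_zero, nsmul_eq_mul, ← tr_kP b hY, dY_tr b] at h1
  nlinarith [mul_pos (Int.natCast_pos.2 hr) (dY_oP (Y := Y) b)]

/-- **the end regions** -/
theorem sameP_of_ex (hF : F1 Y b) (hY : oP Y ∈ On W) (h : a ∈ On W) (ha : Ex W Y a) (hb : Big a)
    {c : ℕ} (hc : 0 < c) (hp : Mod.Pos (c • a) p) : SameP p (oP Y) := by
  obtain ⟨m, hm, d, h1⟩ := hF.2 _ (Geo.tr_mem (P := Y) a)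
  have h2 := dY_lin (Y := Y) (n := n) h1
  rw [map_nsmul, map_zsmul, dY_tr b, nsmul_eq_mul, smul_eq_mul] at h2
  have h3 : 0 < d := (mul_pos_iff_of_pos_right (dY_oP b)).1
    (h2 ▸ mul_pos (Int.natCast_pos.2 hm) (dY_big b hb))
  lift d to ℕ using h3.le
  rw [natCast_zsmul] at h1
  have h4 : (m • tr Y a).Free := h1.free (Br.free_oP.nsmul d)
  have h5 : Mod.Pos (m • a) (m • tr Y a) := pos_of_eqOn (isMod_oP Y) h4
    ((car_of_on (Geo.tr_mem a)).nsmul m) (nsmul_le_nsmul_right (ha.tr_le hY h) m)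
    (LeOn.nsmul (Geo.leOn_iff.2 fun V hV => (Geo.od_tr hV a).ge) m)
  have h6 : m • p = c • m • tr Y a := (hp.nsmul m).unique (smul_comm c m a ▸ h5.nsmul c)
  intro V
  rw [← prm_nsmul hp.free hm, h6, prm_nsmul h4 hc,
    ← prm_nsmul (H := oP Y) Br.free_oP (Int.natCast_pos.1 h3)]
  obtain ⟨f, -, h7⟩ := h1
  rw [h7]
  exact ⟨((car_self (Br.free_oP.nsmul d)).add (car_pr f)).prm,
    (car_add_left (Br.free_oP.nsmul d) (free_pr f)).prm⟩

/-- the class group of `W` is generated by the polarisation and the exceptional primes -/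
theorem exists_span (hF : F1 Y b) (hY : oP Y ∈ On W) {Λ : AddSubgroup (BD ℂ K)} {l : ℕ}
    (hl : 0 < l) (h1 : l • oP Y ∈ Λ) (h2 : ∀ V, Prm (oP W) V → ¬ Prm (oP Y) V → dv W V ∈ Λ)
    (a : BD ℂ K) : ∃ m : ℕ, 0 < m ∧ ∃ z ∈ Λ, ∃ f, EqOn (oP W) (m • a) (z + pr ℂ f) := by
  have h3 : tr W a - tr Y a ∈ Λ := by
    rw [Geo.eq_sum_sp (sub_mem (Geo.tr_mem a) (Br.On_le_iff.2 hY (Geo.tr_mem a)))]
    refine sum_mem fun V hV => zsmul_mem (h2 V (Geo.mem_sp.1 hV).1 fun h => ?_) _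
    exact (Geo.mem_sp.1 hV).2 (by rw [map_sub, Geo.od_tr h, Geo.od_tr (Geo.prm_up hY h), sub_self])
  obtain ⟨m, hm, d, f, hf, h4⟩ := hF.2 _ (Geo.tr_mem (P := Y) a)
  refine ⟨l * m, mul_pos hl hm, _, add_mem (nsmul_mem h3 (l * m)) (zsmul_mem h1 d), f ^ l, ?_⟩
  rw [pr_pow hf, add_assoc, smul_comm d l, ← smul_add, ← h4, ← mul_smul, ← smul_add,
    sub_add_cancel]
  exact EqOn.nsmul (Geo.eqOn_iff.2 fun V hV => (Geo.od_tr hV a).symm) _

omit b in
theorem ev_neg {x : ℤ} (hx : x < 0) (y : ℤ) : ∀ᶠ m : ℕ in atTop, m * x + y < 0 :=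
  (ev_pos (neg_pos.2 hx) (-y)).mono fun m hm => by linarith

omit b in
theorem big_ev (h : Big a) (z : BD ℂ K) : ∀ᶠ m : ℕ in atTop, Big (m • a + z) := by
  simpa only [sub_neg_eq_add] using eventually_atTop.2 (h.exists_sub (-z))

omit b in
theorem ps_single {κ : Type} [DecidableEq κ] (k : κ) (m : ℕ) :
    Ps (m • Pi.single k 1 + 1 : κ → ℤ) := fun j => by
  by_cases h : j = k <;> simp [h]

omit b in
/-- **the geography of two Fano models** -/
theorem setup_of (hA : FG.AStmt (n + 1)) : SetupStmt n := by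
  intro K _ _ b P X hP hX
  classical
  have := AN.G1.essFiniteType P
  obtain ⟨W, hW⟩ := Unf.exists_on {oP P, oP X}
  have hPW : oP P ∈ On W := hW _ (by simp)
  have hXW : oP X ∈ On W := hW _ (by simp)
  let T := ((isMod_oP P).fin_exc (isMod_oP W)).toFinset
  let g : Option T → BD ℂ K := fun o => o.elim (kP W b) fun V => dv W V
  have hg : ∀ o, g o ∈ On W := by
    rintro (_ | V)
    exacts [Br.kP_mem b, Geo.dv_mem _]
  obtain ⟨s, hs, h1⟩ := ((eventually_gt_atTop 0).and (eventually_all.2 fun o =>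
    eventually_atTop.2 ((FG.amp_oP W).exists_amp (hg o)))).exists
  have h0 : Amp W (s • oP W) := (FG.amp_oP W).nsmul hs
  generalize s • oP W = A at h0 h1
  obtain ⟨r, hr, e0, e1, e2⟩ := ((eventually_gt_atTop 0).and (((ex_kP b hPW).ev A).and
    (((ex_kP b hXW).ev A).and (ev_neg (dY_kP b hP hPW) (dY n P A))))).exists
  obtain ⟨l, hl, b0, b1⟩ := ((eventually_gt_atTop 0).and
    ((big_ev (isMod_oP P).big (r • kP W b + A)).and
      (big_ev (isMod_oP X).big (r • kP W b + A)))).exists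
  let G : Fin 3 ⊕ Option T → BD ℂ K := Sum.elim ![0, l • oP P, l • oP X] g
  have hG : ∀ k, Amp W (A + G k) := by
    rintro (k | k)
    · fin_cases k
      · simpa [G] using h0
      · exact h0.add_free (nsmul_mem hPW l) (Br.free_oP.nsmul l)
      · exact h0.add_free (nsmul_mem hXW l) (Br.free_oP.nsmul l)
    · exact h1 k
  let S : FG.Sys (FG.bd0 W b) (Fin 3 ⊕ Option T) :=
    ⟨r, hr, fun k => A + G k, hG, 0, fun _ e => e.elim, fun _ e => e.elim⟩
  have hS : ∀ k, S.D b k = r • kP W b + (A + G k) := fun k => by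
    rw [FG.Sys.D, show S.c k = 0 from rfl, FG.dvs_zero, add_zero]
  let D : (Fin 3 ⊕ Option T → ℤ) →+ BD ℂ K := (Fintype.linearCombination ℤ (S.D b)).toAddMonoidHom
  have hD : ∀ x, D x = ∑ k, x k • S.D b k := fun _ => rfl
  have hD1 : ∀ k, D (Pi.single k 1) = r • kP W b + A + G k := fun k => by
    rw [add_assoc, ← hS, ← one_smul ℤ (S.D b k)]
    exact Fintype.linearCombination_apply_single ℤ _ k 1
  clear_value D
  have hD2 : ∀ k, D (Pi.single k 1 - Pi.single (.inl 0) 1) = G k := fun k => by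
    rw [map_sub, hD1, hD1]
    simp [G]
  have hOn : ∀ x, D x ∈ On W := fun x => hD x ▸ sum_mem fun k _ =>
    zsmul_mem (hS k ▸ add_mem (nsmul_mem (Br.kP_mem b) r) (hG k).1) _
  have hsp : ∀ a : BD ℂ K, ∃ m : ℕ, 0 < m ∧ ∃ x f, EqOn (oP W) (m • a) (D x + pr ℂ f) := fun a => by
    obtain ⟨m, hm, _, ⟨x, rfl⟩, f, h⟩ := exists_span b hP hPW (Λ := D.range) hl
      ⟨_, hD2 (.inl 1)⟩ (fun V h2 h3 => ⟨_, hD2 (.inr (some ⟨V, by simpa [T] using ⟨h2, h3⟩⟩))⟩) a
    exact ⟨m, hm, x, f, h⟩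
  have hpr : ∀ V, Prm (oP W) V → ∃ x f, 1 < (D x + pr ℂ f).val V ∧
      ∀ V', Prm (oP W) V' → V' ≠ V → (D x + pr ℂ f).val V' = 1 := fun V hV => by
    obtain ⟨m, hm, x, f, h⟩ := hsp (dv W V)
    refine ⟨x, f, ?_, fun V' h2 h3 => ?_⟩
    · rw [← h V hV, val_nsmul]
      exact one_lt_pow₀ (Geo.one_lt_val_dv_self hV) hm.ne'
    · rw [← h V' h2, val_nsmul, Geo.val_dv_ne h2 h3, one_pow]
  have hadj : ∀ x, Ps x → ∃ (t q : ℕ) (h : BD ℂ K), 0 < t ∧ 0 < q ∧ D x = t • kP W b + h ∧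
      Car (oP W) h ∧ (q • h - oP W).Free := fun x hx => by
    lift x to Fin 3 ⊕ Option T → ℕ using fun k => (hx k).le
    have h2 : ∀ k, 0 < x k := fun k => Int.natCast_pos.1 (hx k)
    obtain ⟨h3, q, hq, h4⟩ := FG.Amp.sum (t := Finset.univ) Finset.univ_nonempty
      fun k _ => (hG k).nsmul (h2 k)
    refine ⟨(∑ k, x k) * r, q, _, mul_pos (Finset.sum_pos (fun k _ => h2 k) Finset.univ_nonempty)
      hr, hq, ?_, car_of_on h3, h4⟩
    rw [hD, mul_smul, Finset.sum_smul, ← Finset.sum_add_distrib]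
    exact Finset.sum_congr rfl fun k _ => by rw [hS, natCast_zsmul, smul_add]
  obtain ⟨N, ℓ, c, Q, hc, p1, p2, p3⟩ := FG.Fan.arrOut_of_fg _ D hD (hA K W _ b _ S)
  have hv : ∀ k (m : ℕ), D (m • Pi.single k 1 + 1) = m • (r • kP W b + A + G k) + D 1 :=
    fun k m => by rw [map_add, map_nsmul, hD1]
  have e3 : dY n P (r • kP W b + A) < 0 := by rwa [map_add, map_nsmul, nsmul_eq_mul]
  obtain ⟨i, u0, u1, u2⟩ := ((e0.ev (D 1)).and ((e1.ev (D 1)).and (ev_neg e3 (dY n P (D 1))))).exists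
  obtain ⟨j₀, v0, v1⟩ := (((e0.add_on (nsmul_mem Br.oP_mem l)).ev (D 1)).and
    (big_ev (add_comm (l • oP P) _ ▸ b0) (D 1))).exists
  obtain ⟨j₁, w0, w1⟩ := (((e1.add_on (nsmul_mem Br.oP_mem l)).ev (D 1)).and
    (big_ev (add_comm (l • oP X) _ ▸ b1) (D 1))).exists
  have hu : D (i • Pi.single (.inl 0) 1 + 1) = i • (r • kP W b + A) + D 1 := by
    rw [hv]
    simp [G]
  have key : ∀ Y, F1 Y b → oP Y ∈ On W → ∀ y, Ex W Y (D y) → Ps y → Big (D y) →
      SameP (Q y) (oP Y) := fun Y h2 h3 y h4 h5 h6 =>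
    sameP_of_ex b h2 h3 (hOn y) h4 h6 hc (p1 y h5 h6.exists_eff)
  have hk : D (Pi.single (.inr none) 1 - Pi.single (.inl 0) 1) = 1 • kP W b + pr ℂ 1 := by
    rw [hD2, pr_one, one_smul, add_zero]
    rfl
  have hn : ∀ y, ∀ᶠ m : ℕ in atTop,
      ¬ ∃ q : ℕ, 0 < q ∧ Eff (q • D (m • (i • Pi.single (.inl 0) 1 + 1) + y)) := fun y => by
    filter_upwards [ev_neg u2 (dY n P (D y))] with m hm
    rintro ⟨q, hq, h⟩
    have h2 := dY_eff (n := n) (Y := P) h
    rw [map_add D, map_nsmul D, hu] at h2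
    simp only [map_add, map_nsmul, nsmul_eq_mul] at h2 hm
    nlinarith [Int.natCast_pos.2 hq]
  rw [← hu] at u0 u1
  rw [show l • oP P = G (.inl 1) from rfl, ← hv] at v0 v1
  rw [show l • oP X = G (.inl 2) from rfl, ← hv] at w0 w1
  let Γ : Gm b := ⟨W, isMod_oP W, _, D, fun x => car_of_on (hOn x), hsp, hpr, _, 1, one_pos, 1, hk,
    hadj, fun W' V h2 h3 => kP_eq_val b h3 h2, fun W' V => kP_lt_val b, N, ℓ, c, hc, Q, p1, p2, p3⟩
  refine ⟨Γ, {x | Ex W P (D x)}, {x | Ex W X (D x)}, i • Pi.single (.inl 0) 1 + 1,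
    j₀ • Pi.single (.inl 1) 1 + 1, j₁ • Pi.single (.inl 2) 1 + 1, opn_ex D, opn_ex D,
    ps_single _ i, ps_single _ j₀, ps_single _ j₁, ?_, ?_, ?_, ?_, ?_, ?_, ?_, ?_, ?_⟩
  · exact hn
  · exact v1
  · exact w1
  · exact u0
  · exact u1
  · exact v0
  · exact w0
  · exact key P hP hPW
  · exact key X hX hXW

end Crest.Agent.X262.Sark27
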